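import Mathlib

/-! Analytic and combinatorial preliminaries (adapted from the lower bound part of the starting file P057/Bdl/B1). -/

namespace Vale.Agent.P057.H570

section
open Finset

theorem crt_exists {ι : Type*} [Fintype ι] (p : ι → ℕ)
    (hp : Pairwise (Function.onFun Nat.Coprime p)) (hp0 : ∀ i, 0 < p i) :
    ∃ (M : ℕ) (crt : (ι → ℤ) → ZMod M), M = ∏ i, p i ∧ 0 < M ∧
      (∀ (x : ℤ) (v : ι → ℤ), (x : ZMod M) = crt v → ∀ i, (p i : ℤ) ∣ x - v i) ∧
      (∀ v v' : ι → ℤ, crt v = crt v' → ∀ i, (p i : ℤ) ∣ v i - v' i) := by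
  have : ∀ i, NeZero (p i) := fun i => ⟨(hp0 i).ne'⟩
  let e : ZMod (∏ i, p i) ≃+* (∀ i, ZMod (p i)) := ZMod.prodEquivPi p hp
  refine ⟨∏ i, p i, fun v => e.symm (fun i => ((v i : ℤ) : ZMod (p i))), rfl,
    Finset.prod_pos (fun i _ => hp0 i), ?_, ?_⟩
  · intro x v hx i
    have h1 : e (x : ZMod (∏ i, p i)) = fun i => ((v i : ℤ) : ZMod (p i)) := by
      rw [hx]; exact e.apply_symm_apply _
    have h2 : e (x : ZMod (∏ i, p i)) = fun i => ((x : ℤ) : ZMod (p i)) := by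
      rw [map_intCast]; rfl
    have h3 : ((x : ℤ) : ZMod (p i)) = ((v i : ℤ) : ZMod (p i)) := congrFun (h2.symm.trans h1) i
    have h4 : ((x - v i : ℤ) : ZMod (p i)) = 0 := by push_cast; rw [h3, sub_self]
    exact (ZMod.intCast_zmod_eq_zero_iff_dvd _ _).1 h4
  · intro v v' h i
    have h3 : (fun i => ((v i : ℤ) : ZMod (p i))) = fun i => ((v' i : ℤ) : ZMod (p i)) :=
      e.symm.injective h
    have h4 := congrFun h3 i
    have h5 : ((v i - v' i : ℤ) : ZMod (p i)) = 0 := by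
      push_cast; rw [sub_eq_zero]; exact h4
    exact (ZMod.intCast_zmod_eq_zero_iff_dvd _ _).1 h5

theorem pigeon_count {ι : Type*} (M : ℕ) (hM : 0 < M) (crt : (ι → ℤ) → ZMod M)
    (V : Finset (ι → ℤ)) (hV : ∀ v ∈ V, ∀ v' ∈ V, crt v = crt v' → v = v')
    (F : (ι → ℤ) → ℤ) (L : ℕ) (hL : 0 < L) (hF : ∀ v ∈ V, 0 ≤ F v ∧ F v < L)
    (B : Finset ℤ) (hB : B ⊆ Finset.Ico 0 (L : ℤ)) (W : ℕ) :
    ∃ (s : ZMod M) (t : ℤ) (A : Finset ℤ), A ⊆ Finset.Ico 0 (W : ℤ) ∧
      (∀ y ∈ A, ∃ v ∈ V, crt v - (y : ZMod M) = s ∧ F v + t ∈ B) ∧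
      (V.card * W * B.card : ℝ) / (M * (2 * L)) ≤ A.card := by
  classical
  have : NeZero M := ⟨hM.ne'⟩
  let T : Finset ((ι → ℤ) × ℤ × ℤ) := V ×ˢ (Finset.Ico 0 (W : ℤ)) ×ˢ B
  let g : (ι → ℤ) × ℤ × ℤ → ZMod M × ℤ := fun q => (crt q.1 - (q.2.1 : ZMod M), q.2.2 - F q.1)
  let R : Finset (ZMod M × ℤ) := Finset.univ ×ˢ Finset.Ioo (-(L : ℤ)) L
  have memT : ∀ q, q ∈ T ↔ q.1 ∈ V ∧ q.2.1 ∈ Finset.Ico 0 (W : ℤ) ∧ q.2.2 ∈ B := by
    intro q
    rw [Finset.mem_product, Finset.mem_product]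
  have hmaps : ∀ q ∈ T, g q ∈ R := by
    intro q hq
    obtain ⟨hq1, hq2, hq3⟩ := (memT q).1 hq
    have h1 := hF q.1 hq1
    have h2 := Finset.mem_Ico.1 (hB hq3)
    refine Finset.mem_product.2 ⟨Finset.mem_univ _, Finset.mem_Ioo.2 ?_⟩
    show -(L : ℤ) < q.2.2 - F q.1 ∧ q.2.2 - F q.1 < L
    constructor <;> omega
  have hRne : R.Nonempty :=
    ⟨(0, 0), Finset.mem_product.2 ⟨Finset.mem_univ _, Finset.mem_Ioo.2
      ⟨by show -(L : ℤ) < 0; omega, by show (0 : ℤ) < L; omega⟩⟩⟩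
  have hRcard : R.card = M * (2 * L - 1) := by
    have h1 : (Finset.univ : Finset (ZMod M)).card = M := by
      rw [Finset.card_univ]; exact ZMod.card M
    have h2 : (Finset.Ioo (-(L : ℤ)) L).card = 2 * L - 1 := by
      rw [Int.card_Ioo]; omega
    show (Finset.univ ×ˢ Finset.Ioo (-(L : ℤ)) L).card = _
    rw [card_product, h1, h2]
  have hTcard : T.card = V.card * (W * B.card) := by
    show (V ×ˢ ((Finset.Ico 0 (W : ℤ)) ×ˢ B)).card = _
    rw [card_product, card_product, Int.card_Ico, sub_zero, Int.toNat_natCast]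
  have hL' : (0 : ℝ) < L := by exact_mod_cast hL
  have hM' : (0 : ℝ) < M := by exact_mod_cast hM
  have hle : R.card • ((V.card * W * B.card : ℝ) / (M * (2 * L))) ≤ (T.card : ℝ) := by
    rw [nsmul_eq_mul, hRcard, hTcard]
    have h2L : ((2 * L - 1 : ℕ) : ℝ) ≤ 2 * L := by
      have : (2 * L - 1 : ℕ) ≤ 2 * L := Nat.sub_le _ _
      exact_mod_cast this
    push_cast
    rw [← mul_div_assoc, div_le_iff₀ (by positivity)]
    have hX : (0 : ℝ) ≤ V.card * W * B.card * M := by (clear * - hM; positivity)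
    nlinarith only [h2L, hX]
  obtain ⟨⟨s0, t⟩, _, hst⟩ := Finset.exists_le_card_fiber_of_nsmul_le_card_of_maps_to hmaps hRne hle
  refine ⟨s0, t, ((T.filter (fun q => g q = (s0, t))).image (fun q => q.2.1)), ?_, ?_, ?_⟩
  · intro y hy
    obtain ⟨q, hq, rfl⟩ := Finset.mem_image.1 hy
    exact ((memT q).1 (Finset.mem_filter.1 hq).1).2.1
  · intro y hy
    obtain ⟨q, hq, rfl⟩ := Finset.mem_image.1 hy
    obtain ⟨hqT, hqg⟩ := Finset.mem_filter.1 hq
    obtain ⟨hq1, hq2, hq3⟩ := (memT q).1 hqT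
    have h1 : crt q.1 - (q.2.1 : ZMod M) = s0 := congrArg Prod.fst hqg
    have h2 : q.2.2 - F q.1 = t := congrArg Prod.snd hqg
    refine ⟨q.1, hq1, h1, ?_⟩
    have : F q.1 + t = q.2.2 := by rw [← h2]; ring
    rw [this]; exact hq3
  · rw [Finset.card_image_of_injOn]
    · exact hst
    · intro q hq q' hq' hqq
      obtain ⟨hqT, hqg⟩ := Finset.mem_filter.1 (Finset.mem_coe.1 hq)
      obtain ⟨hqT', hqg'⟩ := Finset.mem_filter.1 (Finset.mem_coe.1 hq')
      have hy : q.2.1 = q'.2.1 := hqq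
      have h1 : crt q.1 - (q.2.1 : ZMod M) = s0 := congrArg Prod.fst hqg
      have h1' : crt q'.1 - (q'.2.1 : ZMod M) = s0 := congrArg Prod.fst hqg'
      have h2 : q.2.2 - F q.1 = t := congrArg Prod.snd hqg
      have h2' : q'.2.2 - F q'.1 = t := congrArg Prod.snd hqg'
      have hc : crt q.1 = crt q'.1 := by
        rw [hy] at h1
        exact sub_left_injective (h1.trans h1'.symm)
      have hv : q.1 = q'.1 := hV _ ((memT q).1 hqT).1 _ ((memT q').1 hqT').1 hc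
      have hbb : q.2.2 = q'.2.2 := by
        rw [hv] at h2
        exact sub_left_injective (h2.trans h2'.symm)
      exact Prod.ext hv (Prod.ext hy hbb)

end

section
open Filter Real

theorem ev_exp_ge (a b : ℝ) (ha : 0 < a) (hb : 0 < b) :
    ∀ᶠ y : ℝ in atTop, (b * y + 1) ^ 2 ≤ Real.exp (y / a) := by
  have h1 : Tendsto (fun y : ℝ => Real.exp y / y ^ 3) atTop atTop :=
    Real.tendsto_exp_div_pow_atTop 3
  have h2 : Tendsto (fun y : ℝ => y / a) atTop atTop := tendsto_id.atTop_div_const ha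
  have h3 := (h1.comp h2).eventually_ge_atTop ((a * (b + 1)) ^ 2)
  filter_upwards [h3, eventually_ge_atTop (1 : ℝ), eventually_ge_atTop a] with y hy hy1 hya
  simp only [Function.comp] at hy
  have hya' : 1 ≤ y / a := (one_le_div ha).2 hya
  rw [le_div_iff₀ (by positivity)] at hy
  calc (b * y + 1) ^ 2 ≤ ((b + 1) * y) ^ 2 := by
        apply pow_le_pow_left₀ (by positivity)
        linarith
    _ = (a * (b + 1)) ^ 2 * (y / a) ^ 2 := by field_simp
    _ ≤ (a * (b + 1)) ^ 2 * (y / a) ^ 3 := by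
        apply mul_le_mul_of_nonneg_left _ (by positivity)
        exact pow_le_pow_right₀ hya' (by norm_num)
    _ ≤ _ := hy

theorem ev_exp_const (a C : ℝ) (ha : 0 < a) :
    ∀ᶠ y : ℝ in atTop, C ≤ Real.exp (y / a) := by
  have h2 : Tendsto (fun y : ℝ => y / a) atTop atTop := tendsto_id.atTop_div_const ha
  exact (Real.tendsto_exp_atTop.comp h2).eventually_ge_atTop C

theorem ev_log_le (K b e : ℝ) (hb : 0 < b) (he : 0 < e) :
    ∀ᶠ y : ℝ in atTop, K + Real.log (b * y + 1) ≤ e * y := by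
  have h1 := ev_exp_ge (1 / e) (b * Real.exp K + Real.exp K) (by positivity) (by positivity)
  filter_upwards [h1, eventually_ge_atTop (1 : ℝ)] with y hy hy1
  have hK := Real.exp_pos K
  have h3 : Real.exp K * (b * y + 1) ≤ Real.exp (e * y) := by
    have e1 : y / (1 / e) = e * y := by field_simp
    rw [e1] at hy
    refine le_trans ?_ hy
    have h4 : Real.exp K * (b * y + 1) ≤ (b * Real.exp K + Real.exp K) * y + 1 := by
      nlinarith only [hK, hy1]
    have h5 : 1 ≤ (b * Real.exp K + Real.exp K) * y + 1 := by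
      have : 0 ≤ (b * Real.exp K + Real.exp K) * y := by positivity
      linarith only [this]
    nlinarith only [hy1, hK, h5]
  have hpos : 0 < b * y + 1 := by positivity
  have h6 := Real.log_le_log (by positivity) h3
  rw [Real.log_mul hK.ne' hpos.ne', Real.log_exp, Real.log_exp] at h6
  exact h6

theorem tendsto_y (s : ℕ) :
    Tendsto (fun W : ℕ => (Real.log W) ^ ((1 : ℝ) / ((s : ℝ) + 1))) atTop atTop := by
  have h1 : Tendsto (fun W : ℕ => Real.log (W : ℝ)) atTop atTop :=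
    Real.tendsto_log_atTop.comp tendsto_natCast_atTop_atTop
  exact (tendsto_rpow_atTop (by positivity)).comp h1

/-- bounds for the exponent of the prime size -/
theorem z_bounds (s D : ℕ) (hs : 1 ≤ s) (l y x dd : ℝ) (hl0 : 0 < l) (e6 : 1 ≤ y)
    (hypow : y ^ (s + 1) = x) (hd1 : l * y ≤ dd) (hd2 : dd ≤ l * y + 1) (hd3 : 1 ≤ dd) :
    y / (l + 1) ≤ (x + D * Real.log 2) / dd ∧
    (x + D * Real.log 2) / dd ≤ y ^ s / l + D * Real.log 2 := by
  have hlog2 : 0 < Real.log 2 := Real.log_pos (by norm_num)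
  have hy0 : 0 < y := by linarith only [e6]
  have hdR : 0 < dd := by linarith only [hd3]
  constructor
  · rw [div_le_div_iff₀ (by positivity) hdR]
    have h1 : dd ≤ (l + 1) * y := by nlinarith only [e6, hd2]
    have h2 : y ^ 2 ≤ x := by
      rw [← hypow]
      exact pow_le_pow_right₀ e6 (by omega)
    have h3 : 0 ≤ (D : ℝ) * Real.log 2 := by (clear * -; positivity)
    have h4 : y * dd ≤ y * ((l + 1) * y) := mul_le_mul_of_nonneg_left h1 hy0.le
    have h5 : (l + 1) * y ^ 2 ≤ (l + 1) * x := mul_le_mul_of_nonneg_left h2 (by positivity)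
    have h6 : 0 ≤ (l + 1) * (D * Real.log 2) := by positivity
    linarith only [h4, h5, h6]
  · rw [add_div]
    apply add_le_add
    · rw [div_le_div_iff₀ hdR hl0, ← hypow, pow_succ]
      have h1 : 0 ≤ y ^ s := by positivity
      have h2 := mul_le_mul_of_nonneg_left hd1 h1
      linarith only [h2]
    · exact div_le_self (by positivity) hd3

/-- choice of the dimension and of the size of the primes -/
theorem choose_dm (s D : ℕ) (hs : 1 ≤ s) (l y : ℝ) (hl0 : 0 < l) (e6 : 1 ≤ y) (W : ℕ)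
    (hW1 : 1 ≤ W) (hypow : y ^ (s + 1) = Real.log W)
    (e1 : (l * y + 1) ^ 2 ≤ Real.exp (y / (l + 1))) :
    ∃ d m : ℕ, 1 ≤ d ∧ (d : ℝ) ≤ l * y + 1 ∧ d ^ 2 ≤ m ∧ 1 ≤ m ∧ 2 ^ D * W ≤ m ^ d ∧
      Real.exp (y / (l + 1)) ≤ m ∧ Real.log m ≤ Real.log 2 + (y ^ s / l + D * Real.log 2) := by
  have hy0 : 0 < y := by linarith only [e6]
  refine ⟨⌈l * y⌉₊, ⌈Real.exp ((Real.log W + D * Real.log 2) / ⌈l * y⌉₊)⌉₊, ?_⟩
  have hd1 : (l * y : ℝ) ≤ ⌈l * y⌉₊ := Nat.le_ceil _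
  have hd2 : (⌈l * y⌉₊ : ℝ) ≤ l * y + 1 := (Nat.ceil_lt_add_one (by positivity)).le
  have hdpos : 0 < ⌈l * y⌉₊ := Nat.ceil_pos.2 (by positivity)
  generalize ⌈l * y⌉₊ = d at hd1 hd2 hdpos ⊢
  have hdR : (0 : ℝ) < d := by exact_mod_cast hdpos
  have hd3 : (1 : ℝ) ≤ d := by exact_mod_cast hdpos
  obtain ⟨hz1, hz2⟩ := z_bounds s D hs l y _ d hl0 e6 hypow hd1 hd2 hd3
  have h1 : (Real.exp ((Real.log W + D * Real.log 2) / d)) ^ d = 2 ^ D * W := by
    rw [← Real.exp_nat_mul]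
    have e : (d : ℝ) * ((Real.log W + D * Real.log 2) / d) = D * Real.log 2 + Real.log W := by
      field_simp
      ring
    rw [e, Real.exp_add, Real.exp_log (by exact_mod_cast hW1), mul_comm (D : ℝ),
      Real.exp_mul, Real.exp_log (by norm_num), Real.rpow_natCast]
  generalize (Real.log W + D * Real.log 2) / d = z at hz1 hz2 h1 ⊢
  have hz0 : 0 ≤ z := le_trans (by positivity) hz1
  have hm1 : Real.exp z ≤ ⌈Real.exp z⌉₊ := Nat.le_ceil _
  have hm2 : (⌈Real.exp z⌉₊ : ℝ) ≤ 2 * Real.exp z := by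
    have h1 := (Nat.ceil_lt_add_one (Real.exp_pos z).le).le
    have h2 : 1 ≤ Real.exp z := Real.one_le_exp hz0
    linarith only [h1, h2]
  have hmpos : 0 < ⌈Real.exp z⌉₊ := Nat.ceil_pos.2 (Real.exp_pos z)
  generalize ⌈Real.exp z⌉₊ = m at hm1 hm2 hmpos ⊢
  have hmR : (0 : ℝ) < m := by exact_mod_cast hmpos
  have hexpz : Real.exp (y / (l + 1)) ≤ Real.exp z := Real.exp_le_exp.2 hz1
  refine ⟨hdpos, hd2, ?_, hmpos, ?_, hexpz.trans hm1, ?_⟩
  · have : (d : ℝ) ^ 2 ≤ m := by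
      refine le_trans ?_ (e1.trans (hexpz.trans hm1))
      exact pow_le_pow_left₀ hdR.le hd2 2
    exact_mod_cast this
  · have h2 : (2 : ℝ) ^ D * W ≤ (m : ℝ) ^ d := by
      rw [← h1]
      exact pow_le_pow_left₀ (Real.exp_pos z).le hm1 d
    exact_mod_cast h2
  · have h3 : Real.log m ≤ Real.log 2 + z := by
      refine (Real.log_le_log hmR hm2).trans (le_of_eq ?_)
      rw [Real.log_mul (by norm_num) (Real.exp_pos z).ne', Real.log_exp]
    linarith only [hz2, h3]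

/-- the logarithm of the length of the auxiliary interval -/
theorem logL_bound (s D : ℕ) (hs : 1 ≤ s) (l y δ : ℝ) (hl0 : 0 < l) (hδ : 0 < δ) (e6 : 1 ≤ y)
    (d m : ℕ) (hd1 : 1 ≤ d) (hd2 : (d : ℝ) ≤ l * y + 1) (hm1 : 1 ≤ m)
    (hm2 : Real.log m ≤ Real.log 2 + (y ^ s / l + D * Real.log 2))
    (e4 : Real.log 129 + 2 * (D + 1) * Real.log 2 + Real.log (l * y + 1) ≤ 2 * δ / l * y) :
    Real.log ((128 * d * m ^ 2 + 1 : ℕ) : ℝ) ≤ 2 / l * (1 + δ) * y ^ s := by
  have hdR : (0 : ℝ) < d := by exact_mod_cast hd1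
  have hmR : (0 : ℝ) < m := by exact_mod_cast hm1
  have hLR : ((128 * d * m ^ 2 + 1 : ℕ) : ℝ) ≤ 129 * d * m ^ 2 := by
    have h1 : (1 : ℝ) ≤ d * m ^ 2 := by
      have : 1 ≤ d * m ^ 2 := Nat.mul_pos hd1 (by positivity)
      exact_mod_cast this
    push_cast
    linarith only [h1]
  have hLpos : (0 : ℝ) < ((128 * d * m ^ 2 + 1 : ℕ) : ℝ) := by positivity
  have h1 : Real.log ((128 * d * m ^ 2 + 1 : ℕ) : ℝ) ≤
      Real.log 129 + Real.log d + 2 * Real.log m := by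
    refine (Real.log_le_log hLpos hLR).trans (le_of_eq ?_)
    rw [Real.log_mul (by positivity) (by positivity), Real.log_mul (by norm_num) hdR.ne',
      Real.log_pow]
    push_cast
    ring
  have h2 : Real.log d ≤ Real.log (l * y + 1) := Real.log_le_log hdR hd2
  have h4 : y ≤ y ^ s := by
    calc y = y ^ 1 := (pow_one y).symm
      _ ≤ y ^ s := pow_le_pow_right₀ e6 hs
  have h5 : 2 * δ / l * y ≤ 2 * δ / l * y ^ s := mul_le_mul_of_nonneg_left h4 (by positivity)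
  have h6 : 2 / l * (1 + δ) * y ^ s = 2 * (y ^ s / l) + 2 * δ / l * y ^ s := by
    field_simp
  rw [h6]
  linarith only [h1, h2, h5, e4, hm2]

theorem root_bound (s : ℕ) (hs : 1 ≤ s) (c G μ y δ X : ℝ) (hc : 0 < c) (hG : 0 < G) (hμ0 : 0 < μ)
    (hμpow : μ ^ (s + 1) = 2 * c * G) (hδ : 0 < δ) (hy : 0 < y) (hX0 : 0 ≤ X)
    (hX : X ≤ 2 / (μ / c) * (1 + δ) * y ^ s) :
    (G * X) ^ ((1 : ℝ) / s) ≤ μ * y * (1 + δ) := by
  have h1 : G * X ≤ (μ * y * (1 + δ)) ^ s := by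
    have h2 : G * X ≤ G * (2 / (μ / c) * (1 + δ) * y ^ s) :=
      mul_le_mul_of_nonneg_left hX hG.le
    have h3 : G * (2 / (μ / c)) = μ ^ s := by
      field_simp
      rw [← pow_succ', hμpow]
      ring
    have h4 : (1 + δ) ≤ (1 + δ) ^ s := by
      calc (1 + δ) = (1 + δ) ^ 1 := (pow_one _).symm
        _ ≤ (1 + δ) ^ s := pow_le_pow_right₀ (by linarith only [hδ]) hs
    calc G * X ≤ G * (2 / (μ / c) * (1 + δ) * y ^ s) := h2
      _ = (G * (2 / (μ / c))) * y ^ s * (1 + δ) := by ring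
      _ = μ ^ s * y ^ s * (1 + δ) := by rw [h3]
      _ ≤ μ ^ s * y ^ s * (1 + δ) ^ s := mul_le_mul_of_nonneg_left h4 (by positivity)
      _ = _ := by rw [mul_pow, mul_pow]
  calc (G * X) ^ ((1 : ℝ) / s) ≤ ((μ * y * (1 + δ)) ^ s) ^ ((1 : ℝ) / s) :=
        Real.rpow_le_rpow (by positivity) h1 (by positivity)
    _ = μ * y * (1 + δ) := by
        rw [one_div]
        exact Real.pow_rpow_inv_natCast (by positivity) (by omega)

theorem final_exp (s : ℕ) (c μ y δ ε dd X : ℝ) (hc : 0 < c) (hμ0 : 0 < μ)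
    (hδ : 0 < δ) (hδ1 : δ ≤ 1) (hδε : 4 * δ ≤ ε) (hy : 0 < y)
    (hd2 : dd ≤ μ / c * y + 1) (hX : X ≤ μ * y * (1 + δ))
    (e5 : (1 + δ) * c + Real.log 2 ≤ δ * μ * y) :
    (1 + ε) * ((s + 1 : ℕ) : ℝ) * (μ * y) ≥ (c + c * δ) * dd + (1 + δ) * s * X + Real.log 2 := by
  have f1 : (c + c * δ) * dd ≤ (1 + δ) * (μ * y + c) := by
    calc (c + c * δ) * dd ≤ (c + c * δ) * (μ / c * y + 1) :=
          mul_le_mul_of_nonneg_left hd2 (by positivity)
      _ = _ := by field_simp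
  have f2 : (1 + δ) * s * X ≤ (1 + δ) * s * (μ * y * (1 + δ)) :=
    mul_le_mul_of_nonneg_left hX (by positivity)
  have f3 : (1 + δ) * s * (μ * y * (1 + δ)) ≤ s * (μ * y) * (1 + 3 * δ) := by
    have : (1 + δ) * (1 + δ) ≤ 1 + 3 * δ := by nlinarith only [hδ, hδ1]
    calc (1 + δ) * s * (μ * y * (1 + δ)) = s * (μ * y) * ((1 + δ) * (1 + δ)) := by ring
      _ ≤ _ := mul_le_mul_of_nonneg_left this (by positivity)
  have f4 : (1 + 4 * δ) * (((s : ℝ) + 1) * (μ * y)) ≤ (1 + ε) * (((s : ℝ) + 1) * (μ * y)) :=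
    mul_le_mul_of_nonneg_right (by linarith only [hδε]) (by positivity)
  have f5 : 0 ≤ (s : ℝ) * (μ * y) * δ := by positivity
  have f6 : 0 ≤ (μ * y) * δ := by positivity
  push_cast
  linarith

/-- the optimisation in the dimension, abstractly -/
theorem step_asym (s : ℕ) (hs : 1 ≤ s) (c G : ℝ) (hc : 0 < c) (hG : 0 < G) (D : ℕ)
    (T1 T2 : ℕ → ℝ → Prop) (mono : ∀ W x y, T1 W x → y ≤ x → T1 W y)
    (H1 : ∀ η : ℝ, 0 < η → ∃ m0 : ℕ, ∀ m : ℕ, m0 ≤ m → ∀ d : ℕ, 1 ≤ d → d ^ 2 ≤ m →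
      ∀ W : ℕ, 2 ^ D * W ≤ m ^ d → ∀ x : ℝ, T2 (128 * d * m ^ 2 + 1) x →
        T1 W (Real.exp (-((c + η) * d)) * (x / 2)))
    (H2 : ∀ ε : ℝ, 0 < ε → ∃ N0 : ℕ, ∀ N : ℕ, N0 ≤ N →
      T2 N (Real.exp (-((1 + ε) * s * (G * Real.log N) ^ ((1 : ℝ) / s)))))
    (ε : ℝ) (hε : 0 < ε) : ∃ N0 : ℕ, ∀ W : ℕ, N0 ≤ W →
      T1 W (Real.exp (-((1 + ε) * ((s + 1 : ℕ) : ℝ) *
        (2 * c * G * Real.log W) ^ ((1 : ℝ) / ((s + 1 : ℕ) : ℝ))))) := by
  obtain ⟨δ, hδ, hδ1, hδε⟩ : ∃ δ : ℝ, 0 < δ ∧ δ ≤ 1 ∧ 4 * δ ≤ ε := by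
    refine ⟨min 1 (ε / 4), by positivity, min_le_left _ _, ?_⟩
    have := min_le_right 1 (ε / 4)
    linarith only [this]
  obtain ⟨μ, hμ⟩ : ∃ μ : ℝ, μ = (2 * c * G) ^ ((1 : ℝ) / ((s + 1 : ℕ) : ℝ)) := ⟨_, rfl⟩
  have hμ0 : 0 < μ := by rw [hμ]; positivity
  have hμpow : μ ^ (s + 1) = 2 * c * G := by
    rw [hμ, one_div]
    exact Real.rpow_inv_natCast_pow (by positivity) (by omega)
  have hl0 : 0 < μ / c := by positivity
  obtain ⟨m0, hm0⟩ := H1 (c * δ) (by positivity)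
  obtain ⟨N0, hN0⟩ := H2 δ hδ
  have ev1 := ev_exp_ge (μ / c + 1) (μ / c) (by positivity) hl0
  have ev2 := ev_exp_const (μ / c + 1) (m0 : ℝ) (by positivity)
  have ev3 := ev_exp_const (μ / c + 1) (N0 : ℝ) (by positivity)
  have ev4 := ev_log_le (Real.log 129 + 2 * (D + 1) * Real.log 2) (μ / c) (2 * δ / (μ / c)) hl0
    (by positivity)
  have ev5 : ∀ᶠ y : ℝ in atTop, ((1 + δ) * c + Real.log 2) ≤ δ * μ * y :=
    (tendsto_id.const_mul_atTop (by positivity : 0 < δ * μ)).eventually_ge_atTop _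
  have evall := (tendsto_y s).eventually (ev1.and (ev2.and (ev3.and (ev4.and (ev5.and
    (eventually_ge_atTop (1 : ℝ)))))))
  obtain ⟨W0, hW0⟩ := eventually_atTop.1 evall
  refine ⟨max W0 1, fun W hW => ?_⟩
  have hWW0 : W0 ≤ W := le_trans (le_max_left _ _) hW
  have hW1 : 1 ≤ W := le_trans (le_max_right _ _) hW
  have hlogW : 0 ≤ Real.log W := Real.log_natCast_nonneg W
  have hypow : ((Real.log W) ^ ((1 : ℝ) / ((s : ℝ) + 1))) ^ (s + 1) = Real.log W := by
    have := Real.rpow_inv_natCast_pow hlogW (n := s + 1) (by omega)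
    rw [one_div]
    push_cast at this
    exact this
  have hμy : (2 * c * G * Real.log W) ^ ((1 : ℝ) / ((s + 1 : ℕ) : ℝ)) =
      μ * (Real.log W) ^ ((1 : ℝ) / ((s : ℝ) + 1)) := by
    rw [Real.mul_rpow (by positivity) hlogW, hμ]
    push_cast
    rfl
  rw [hμy]
  obtain ⟨e1, e2, e3, e4, e5, e6⟩ := hW0 W hWW0
  generalize (Real.log W) ^ ((1 : ℝ) / ((s : ℝ) + 1)) = y at hypow e1 e2 e3 e4 e5 e6 ⊢
  obtain ⟨d, m, hd1, hd2, hdm, hm1, hWm, hem, hlogm⟩ :=
    choose_dm s D hs (μ / c) y hl0 e6 W hW1 hypow e1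
  have hmm0 : m0 ≤ m := by exact_mod_cast (e2.trans hem)
  have hmN0 : N0 ≤ m := by exact_mod_cast (e3.trans hem)
  have hLN0 : N0 ≤ 128 * d * m ^ 2 + 1 := by
    refine hmN0.trans ?_
    nlinarith only [hd1, hm1]
  have hT := hm0 m hmm0 d hd1 hdm W hWm _ (hN0 _ hLN0)
  refine mono _ _ _ hT ?_
  have hlogL := logL_bound s D hs (μ / c) y δ hl0 hδ e6 d m hd1 hd2 hm1 hlogm e4
  have hlogL0 : 0 ≤ Real.log ((128 * d * m ^ 2 + 1 : ℕ) : ℝ) := Real.log_natCast_nonneg _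
  have hroot := root_bound s hs c G μ y δ _ hc hG hμ0 hμpow hδ (by linarith only [e6]) hlogL0 hlogL
  generalize (G * Real.log ((128 * d * m ^ 2 + 1 : ℕ) : ℝ)) ^ ((1 : ℝ) / s) = X at hroot ⊢
  have hexp2 : Real.exp (-((c + c * δ) * d)) * (Real.exp (-((1 + δ) * s * X)) / 2) =
      Real.exp (-((c + c * δ) * d) - (1 + δ) * s * X - Real.log 2) := by
    rw [Real.exp_sub, sub_eq_add_neg, Real.exp_add, Real.exp_log (by norm_num)]
    ring
  rw [hexp2]
  apply Real.exp_le_exp.2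
  have := final_exp s c μ y δ ε d X hc hμ0 hδ hδ1 hδε (by linarith only [e6]) hd2 hroot e5
  linarith only [this]


end

section
open Finset

theorem log_fourth {r : ℝ} (hr : 1 ≤ r) : Real.log (r ^ 4) ≤ 4 * r := by
  rw [Real.log_pow]
  push_cast
  have := Real.log_le_sub_one_of_pos (by linarith : 0 < r)
  linarith

/-- many primes between `m` and `8 m` -/
theorem primes_exist (m d : ℕ) (hm : 10 ^ 6 ≤ m) (hd : d ^ 2 ≤ m) :
    ∃ P : Finset ℕ, P.card = d ∧ ∀ p ∈ P, p.Prime ∧ m < p ∧ p ≤ 8 * m := by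
  have key : d ≤ ((Finset.Ioc m (8 * m)).filter Nat.Prime).card := by
    have h1 := Chebyshev.theta_ge (8 * m)
    have h2 := Chebyshev.theta_le_log4_mul_x (x := (m : ℝ)) (by positivity)
    have hθ8 : Chebyshev.theta ((8 * m : ℕ) : ℝ) =
        ∑ p ∈ (Finset.Ioc 0 (8 * m)).filter Nat.Prime, Real.log p := by
      unfold Chebyshev.theta
      rw [Nat.floor_natCast]
    have hθ1 : Chebyshev.theta (m : ℝ) =
        ∑ p ∈ (Finset.Ioc 0 m).filter Nat.Prime, Real.log p := by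
      unfold Chebyshev.theta
      rw [Nat.floor_natCast]
    have hunion : (Finset.Ioc 0 (8 * m)).filter Nat.Prime =
        (Finset.Ioc 0 m).filter Nat.Prime ∪ (Finset.Ioc m (8 * m)).filter Nat.Prime := by
      rw [← Finset.filter_union, Finset.Ioc_union_Ioc_eq_Ioc (by omega) (by omega)]
    have hdisj : Disjoint ((Finset.Ioc 0 m).filter Nat.Prime)
        ((Finset.Ioc m (8 * m)).filter Nat.Prime) := by
      apply Finset.disjoint_filter_filter
      rw [Finset.disjoint_left]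
      intro a ha hb
      rw [Finset.mem_Ioc] at ha hb
      omega
    have hsum : Chebyshev.theta ((8 * m : ℕ) : ℝ) = Chebyshev.theta (m : ℝ) +
        ∑ p ∈ (Finset.Ioc m (8 * m)).filter Nat.Prime, Real.log p := by
      rw [hθ8, hθ1, hunion, Finset.sum_union hdisj]
    have hmR : (1000000 : ℝ) ≤ m := by
      have : 1000000 ≤ m := by norm_num at hm; exact hm
      exact_mod_cast this
    have hub : ∑ p ∈ (Finset.Ioc m (8 * m)).filter Nat.Prime, Real.log p ≤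
        ((Finset.Ioc m (8 * m)).filter Nat.Prime).card * Real.log (8 * m) := by
      rw [← nsmul_eq_mul]
      apply Finset.sum_le_card_nsmul
      intro p hp
      have hp' := Finset.mem_filter.1 hp
      have hp2 := Finset.mem_Ioc.1 hp'.1
      apply Real.log_le_log
      · have : 0 < p := by omega
        exact_mod_cast this
      · have : p ≤ 8 * m := hp2.2
        exact_mod_cast this
    -- numerical inequality
    obtain ⟨r, hr0, hr4⟩ : ∃ r : ℝ, 0 ≤ r ∧ r ^ 4 = 8 * m + 1 := by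
      refine ⟨Real.sqrt (Real.sqrt (8 * m + 1)), Real.sqrt_nonneg _, ?_⟩
      have e : ∀ x : ℝ, 0 ≤ x → Real.sqrt (Real.sqrt x) ^ 4 = x := by
        intro x hx
        calc Real.sqrt (Real.sqrt x) ^ 4 = (Real.sqrt (Real.sqrt x) ^ 2) ^ 2 := by ring
          _ = x := by rw [Real.sq_sqrt (Real.sqrt_nonneg _), Real.sq_sqrt hx]
      exact e _ (by positivity)
    have hr40 : 40 ≤ r := by
      by_contra hcon
      push Not at hcon
      have : r ^ 4 ≤ 40 ^ 4 := pow_le_pow_left₀ hr0 hcon.le 4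
      rw [hr4] at this
      have h40 : (40 : ℝ) ^ 4 = 2560000 := by norm_num
      rw [h40] at this
      linarith only [hmR, this]
    have hlog1 : Real.log (8 * m + 1) ≤ 4 * r := by
      rw [← hr4]
      exact log_fourth (by linarith only [hr40])
    have hlog8 : Real.log (8 * m) ≤ 4 * r := by
      refine le_trans (Real.log_le_log (by positivity) (by linarith only [])) hlog1
    have hlog80 : 0 ≤ Real.log (8 * m) := Real.log_nonneg (by linarith only [hmR])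
    have hsqrt8 : Real.sqrt (8 * m) ≤ r ^ 2 := by
      rw [Real.sqrt_le_left (by positivity)]
      have : (r ^ 2) ^ 2 = r ^ 4 := by ring
      rw [this, hr4]
      linarith only []
    have hlog2 : (0.69 : ℝ) ≤ Real.log 2 := by
      have := Real.log_two_gt_d9
      norm_num at this ⊢
      linarith only [this]
    have hlog4 : Real.log 4 = 2 * Real.log 2 := by
      rw [show (4 : ℝ) = 2 ^ 2 by norm_num, Real.log_pow]
      push_cast
      ring
    have hdR : (d : ℝ) ≤ r ^ 2 / 2 := by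
      have h5 : (d : ℝ) ^ 2 ≤ m := by exact_mod_cast hd
      have h6 : (d : ℝ) ^ 2 ≤ (r ^ 2 / 2) ^ 2 := by
        have : (r ^ 2 / 2) ^ 2 = r ^ 4 / 4 := by ring
        rw [this, hr4]
        linarith only [h5]
      exact le_of_sq_le_sq h6 (by positivity)
    push_cast at h1
    by_contra hcon
    push Not at hcon
    have hcon' : (((Finset.Ioc m (8 * m)).filter Nat.Prime).card : ℝ) ≤ d := by
      exact_mod_cast hcon.le
    have h7 : (((Finset.Ioc m (8 * m)).filter Nat.Prime).card : ℝ) * Real.log (8 * m) ≤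
        r ^ 2 / 2 * (4 * r) :=
      mul_le_mul (hcon'.trans hdR) hlog8 hlog80 (by positivity)
    have h8 : 2 * Real.sqrt (8 * m) * Real.log (8 * m) ≤ 2 * r ^ 2 * (4 * r) :=
      mul_le_mul (by linarith only [hsqrt8]) hlog8 hlog80 (by positivity)
    push_cast at hsum
    rw [hlog4] at h2
    have h9 : 6 * (m : ℝ) * Real.log 2 ≤ 10 * r ^ 3 + 4 * r := by
      linarith
    have h10 : 6 * (m : ℝ) * 0.69 ≤ 10 * r ^ 3 + 4 * r := by
      have : 0 ≤ 6 * (m : ℝ) := by positivity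
      nlinarith only [h2, hub, hlog1, h1, h7, h8, hsum, hlog2]
    have h11 : (8 * m : ℝ) = r ^ 4 - 1 := by linarith only [hr4]
    have h12 : r ^ 4 ≥ 40 * r ^ 3 := by
      have : r ^ 4 = r * r ^ 3 := by ring
      rw [this]
      exact mul_le_mul_of_nonneg_right hr40 (by positivity)
    have h13 : r ^ 3 ≥ 1600 * r := by
      have : r ^ 3 = r ^ 2 * r := by ring
      rw [this]
      apply mul_le_mul_of_nonneg_right _ hr0
      nlinarith only [hmR, hr4]
    nlinarith only [hr4, h10, h12, h13]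
  obtain ⟨P, hP, hPc⟩ := Finset.exists_subset_card_eq key
  refine ⟨P, hPc, fun p hp => ?_⟩
  have := Finset.mem_filter.1 (hP hp)
  have h2 := Finset.mem_Ioc.1 this.1
  exact ⟨this.2, h2.1, h2.2⟩




end

end Vale.Agent.P057.H570
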