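import Mathlib

/-! The three dimensional shape: pieces `K` (core), `E`, `T`, `W` (wings). -/

namespace Vale.Agent.P057.H570

/-- the core -/
def PK (P : Fin 3 → ℝ) : Prop :=
  0 < P 0 ∧ P 0 < 1 / 2 ∧ 0 < P 1 ∧ P 1 < 1 / 2 ∧ |P 2| < 1 / 4 ∧ |P 2| < 1 / 16 + P 1 / 2

/-- early wing, `e = ±1` the lift in the last coordinate -/
def PE (h : ℝ) (e : ℤ) (P : Fin 3 → ℝ) : Prop :=
  0 < P 0 ∧ h ≤ P 1 - 1 / 2 ∧ P 1 - 1 / 2 < 1 / 4 ∧ P 0 + (P 1 - 1 / 2) < 3 / 8 ∧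
    |P 2 - e / 4| < 1 / 8 ∧ |P 2 - e / 4| < 3 / 16 - (P 1 - 1 / 2) / 2

/-- late wing, the part above the core -/
def PT (h : ℝ) (e : ℤ) (P : Fin 3 → ℝ) : Prop :=
  1 / 4 ≤ P 0 ∧ P 0 < 1 / 2 ∧ 0 < P 1 - 1 / 2 ∧ P 1 - 1 / 2 < 1 / 4 ∧
    7 / 16 ≤ P 0 + (P 1 - 1 / 2) ∧ P 0 + (P 1 - 1 / 2) < 1 / 2 ∧
    P 0 + (P 1 - 1 / 2) / 2 ≤ 7 / 16 - h / 2 ∧
    |P 2 - e / 4| < 1 / 8 ∧ |P 2 - e / 4| < 3 / 16 - (P 1 - 1 / 2) / 2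

/-- late wing beside the core, `r = 0, 1` the lift in the middle coordinate -/
def PW (h : ℝ) (r e : ℤ) (P : Fin 3 → ℝ) : Prop :=
  1 / 4 ≤ P 0 - 1 / 2 ∧ P 0 - 1 / 2 ≤ 1 / 2 - h ∧ 0 < P 1 - r / 2 ∧ P 1 - r / 2 < 1 / 4 ∧
    7 / 16 ≤ (P 0 - 1 / 2) + (P 1 - r / 2) ∧
    |P 2 - e / 4| < 1 / 8 ∧ |P 2 - e / 4| < 3 / 16 - (P 1 - r / 2) / 2

/-- `P` belongs to the piece with centre `k / 4`, at time `t` -/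
def Cls (h : ℝ) (P : Fin 3 → ℝ) (k : Fin 3 → ℤ) (t : ℝ) : Prop :=
  (PK P ∧ k = ![0, 0, 0] ∧ t = 0) ∨
  (∃ e : ℤ, (e = 1 ∨ e = -1) ∧
    ((PE h e P ∧ k = ![0, 2, e] ∧ t = 1 + (P 1 - 1 / 2)) ∨
     (PT h e P ∧ k = ![0, 2, e] ∧ t = 2 + (1 / 2 - P 0)) ∨
     (∃ r : ℤ, (r = 0 ∨ r = 1) ∧ PW h r e P ∧ k = ![2, 2 * r, e] ∧ t = 2 + (1 - P 0))))

/-- the number of integer points of the scaled shape is at least `(1967/12288 - η) p₀ p₁ p₂` -/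
def CountStmt : Prop :=
  ∀ η : ℝ, 0 < η → ∃ h : ℝ, 0 < h ∧ h ≤ 1 / 16 ∧ ∃ m0 : ℕ, ∀ p : Fin 3 → ℕ, (∀ i, m0 ≤ p i) →
    ∃ U : Finset (Fin 3 → ℤ), (∀ u ∈ U, ∃ k t, Cls h (fun i => (u i : ℝ) / p i) k t) ∧
      (1967 / 12288 - η) * ∏ i, (p i : ℝ) ≤ U.card

end Vale.Agent.P057.H570
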