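import Vale.Agent.P057.H570.Level

/-! From families of three dimensional blocks to lower bounds for sets without three term
progressions. -/

namespace Vale.Agent.P057.H570

open Finset

/-- blocks with cost `c` per dimension exist for all large moduli -/
def Cost3 (c : ℝ) (R : ℕ) : Prop :=
  ∀ η : ℝ, 0 < η → ∃ m0 : ℕ, ∀ m : ℕ, m0 ≤ m → ∀ p : Fin 3 → ℕ, (∀ i, m < p i ∧ p i ≤ 8 * m) →
    ∃ (U : Finset (Fin 3 → ℤ)) (f : (Fin 3 → ℤ) → ℤ), Block3 p U f ∧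
      (∀ u ∈ U, 0 ≤ f u ∧ f u ≤ (R : ℤ) * (m : ℤ) ^ 2) ∧
      Real.exp (-(3 * (c + η))) ≤ (U.card : ℝ) / ∏ i, (p i : ℝ)

theorem one_level3 (c : ℝ) (hc0 : 0 < c) (R : ℕ) (hc : Cost3 c R) (η : ℝ) (hη : 0 < η) :
    ∃ m0 : ℕ, ∀ m : ℕ, m0 ≤ m → ∀ d : ℕ, 1 ≤ d → d ^ 2 ≤ m →
      ∀ W : ℕ, 2 ^ 1 * W ≤ m ^ d → ∀ x : ℝ,
        (Real.exp (2 * (c + 1)) * ((R : ℝ) + 1)) * ((128 * d * m ^ 2 + 1 : ℕ) : ℝ) * x ≤ 1 →
        Dens3 W (Real.exp (-((c + η) * d)) * (x / 2)) := by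
  classical
  obtain ⟨m1, hm1⟩ := hc (min η 1) (lt_min hη one_pos)
  refine ⟨max m1 (10 ^ 6), fun m hm d hd hdm W hW x hx => ?_⟩
  have hm6 : 10 ^ 6 ≤ m := le_trans (le_max_right _ _) hm
  obtain ⟨t, ht1, ht2, ht3⟩ : ∃ t : ℕ, d ≤ 3 * t ∧ 3 * t ≤ d + 2 ∧ t ≤ d :=
    ⟨(d + 2) / 3, by omega, by omega, by omega⟩
  have hsq : (3 * t) ^ 2 ≤ 2 * m := by
    have h1 : (3 * t) ^ 2 ≤ (d + 2) ^ 2 := Nat.pow_le_pow_left ht2 2
    have h2 : 4 * d + 4 ≤ m := by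
      by_contra hcon
      push Not at hcon
      nlinarith
    nlinarith
  obtain ⟨P, hPc, hP⟩ := primes_exist (2 * m) (3 * t) (by omega) hsq
  have hcardeq : Fintype.card (Fin t × Fin 3) = Fintype.card P := by
    rw [Fintype.card_prod, Fintype.card_fin, Fintype.card_fin, Fintype.card_coe, hPc, mul_comm]
  let e : (Fin t × Fin 3) ≃ P := Fintype.equivOfCardEq hcardeq
  let q : Fin t × Fin 3 → ℕ := fun i => (e i : ℕ)
  have hqP : ∀ i, (q i).Prime ∧ 2 * m < q i ∧ q i ≤ 8 * (2 * m) := fun i => hP _ (e i).2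
  have hcop : Pairwise (Function.onFun Nat.Coprime q) := by
    intro i j hij
    exact (Nat.coprime_primes (hqP i).1 (hqP j).1).2
      (fun h => hij (e.injective (Subtype.ext h)))
  have hex : ∀ b : Fin t, ∃ (U : Finset (Fin 3 → ℤ)) (f : (Fin 3 → ℤ) → ℤ),
      Block3 (fun i => q (b, i)) U f ∧
      (∀ u ∈ U, 0 ≤ f u ∧ f u ≤ (R : ℤ) * ((2 * m : ℕ) : ℤ) ^ 2) ∧
      Real.exp (-(3 * (c + min η 1))) ≤ (U.card : ℝ) / ∏ i, (q (b, i) : ℝ) := by
    intro b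
    exact hm1 (2 * m) (le_trans (le_max_left _ _) (hm.trans (by omega))) (fun i => q (b, i))
      (fun i => (hqP (b, i)).2)
  choose U f hU hf hUc using hex
  obtain ⟨L, hLdef⟩ : ∃ L : ℕ, L = 4 * R * d * m ^ 2 + 1 := ⟨_, rfl⟩
  have hL : 0 < L := by rw [hLdef]; omega
  have hF : ∀ v : Fin t → Fin 3 → ℤ, (∀ b, v b ∈ U b) → ∑ b, f b (v b) < (L : ℤ) := by
    intro v hv
    have h1 : ∑ b, f b (v b) ≤ ∑ _b : Fin t, (R : ℤ) * ((2 * m : ℕ) : ℤ) ^ 2 :=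
      Finset.sum_le_sum (fun b _ => (hf b _ (hv b)).2)
    rw [Finset.sum_const, Finset.card_univ, Fintype.card_fin, nsmul_eq_mul] at h1
    have h2 : (t : ℤ) * ((R : ℤ) * ((2 * m : ℕ) : ℤ) ^ 2) ≤
        (d : ℤ) * ((R : ℤ) * ((2 * m : ℕ) : ℤ) ^ 2) := by
      apply mul_le_mul_of_nonneg_right _ (by positivity)
      exact_mod_cast ht3
    rw [hLdef]
    push_cast at h1 h2 ⊢
    nlinarith only [h1, h2]
  have hWq : W ≤ ∏ i, q i := by
    have h1 : m ^ d ≤ (2 * m) ^ (3 * t) := by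
      calc m ^ d ≤ (2 * m) ^ d := Nat.pow_le_pow_left (by omega) d
        _ ≤ (2 * m) ^ (3 * t) := Nat.pow_le_pow_right (by omega) ht1
    have h2 : (2 * m) ^ (3 * t) ≤ ∏ i, q i := by
      have h3 : ∏ i : Fin t × Fin 3, q i = ∏ p : P, (p : ℕ) :=
        Fintype.prod_equiv e _ _ (fun i => rfl)
      rw [h3, Finset.prod_coe_sort P (fun p => p), ← hPc]
      exact Finset.pow_card_le_prod _ _ _ (fun p hp => (hP p hp).2.1.le)
    omega
  obtain ⟨A, hA, hAf, hAc⟩ := level3 q hcop (fun i => (hqP i).1.pos) U f hU L hL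
    (fun b u hu => (hf b u hu).1) hF W hWq
  refine ⟨A, hA, hAf, le_trans ?_ hAc⟩
  have h1 : Real.exp (-(3 * (c + min η 1)) * t) ≤ ∏ b, ((U b).card : ℝ) / ∏ i, (q (b, i) : ℝ) := by
    have : Real.exp (-(3 * (c + min η 1)) * t) = ∏ _b : Fin t, Real.exp (-(3 * (c + min η 1))) := by
      rw [Finset.prod_const, Finset.card_univ, Fintype.card_fin, ← Real.exp_nat_mul]
      congr 1
      ring
    rw [this]
    exact Finset.prod_le_prod (fun b _ => (Real.exp_pos _).le) (fun b _ => hUc b)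
  have h2 : Real.exp (-((c + η) * d)) * Real.exp (-(2 * (c + 1))) ≤
      Real.exp (-(3 * (c + min η 1)) * t) := by
    rw [← Real.exp_add]
    apply Real.exp_le_exp.2
    have g1 : min η 1 ≤ η := min_le_left _ _
    have g2 : min η 1 ≤ 1 := min_le_right _ _
    have g3 : 0 < min η 1 := lt_min hη one_pos
    have g4 : (3 * t : ℝ) ≤ d + 2 := by exact_mod_cast ht2
    have g5 : (0 : ℝ) ≤ d := Nat.cast_nonneg _
    have g6 : (c + min η 1) * (3 * t) ≤ (c + min η 1) * (d + 2) :=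
      mul_le_mul_of_nonneg_left g4 (by linarith)
    have g7 : (c + min η 1) * d ≤ (c + η) * d := mul_le_mul_of_nonneg_right (by linarith) g5
    linarith
  have hLR : (L : ℝ) ≤ ((R : ℝ) + 1) * ((128 * d * m ^ 2 + 1 : ℕ) : ℝ) := by
    rw [hLdef]
    push_cast
    have g1 : (0 : ℝ) ≤ (R : ℝ) * d * m ^ 2 := by positivity
    have g2 : (0 : ℝ) ≤ (d : ℝ) * m ^ 2 := by positivity
    have g3 : (0 : ℝ) ≤ (R : ℝ) := by positivity
    nlinarith only [g1, g2, g3]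
  have hLpos : (0 : ℝ) < L := by exact_mod_cast hL
  have hx2 : x / 2 ≤ Real.exp (-(2 * (c + 1))) * (1 / (2 * L)) := by
    have hE : 0 < Real.exp (2 * (c + 1)) := Real.exp_pos _
    have hEi : Real.exp (-(2 * (c + 1))) = 1 / Real.exp (2 * (c + 1)) := by
      rw [Real.exp_neg, one_div]
    rw [hEi, div_mul_div_comm, one_mul, div_le_div_iff₀ two_pos (by positivity)]
    by_cases hx0 : 0 ≤ x
    · have g1 : Real.exp (2 * (c + 1)) * (L : ℝ) * x ≤
          (Real.exp (2 * (c + 1)) * ((R : ℝ) + 1)) * ((128 * d * m ^ 2 + 1 : ℕ) : ℝ) * x := by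
        apply mul_le_mul_of_nonneg_right _ hx0
        rw [mul_assoc]
        exact mul_le_mul_of_nonneg_left hLR hE.le
      nlinarith only [g1, hx]
    · push Not at hx0
      have : x * (Real.exp (2 * (c + 1)) * (2 * L)) ≤ 0 :=
        mul_nonpos_of_nonpos_of_nonneg hx0.le (by positivity)
      linarith
  calc (W : ℝ) * (Real.exp (-((c + η) * d)) * (x / 2))
      ≤ W * (Real.exp (-((c + η) * d)) * (Real.exp (-(2 * (c + 1))) * (1 / (2 * L)))) := by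
        apply mul_le_mul_of_nonneg_left _ (Nat.cast_nonneg _)
        exact mul_le_mul_of_nonneg_left hx2 (Real.exp_pos _).le
    _ = W * (Real.exp (-((c + η) * d)) * Real.exp (-(2 * (c + 1)))) * (1 / (2 * L)) := by ring
    _ ≤ W * (∏ b, ((U b).card : ℝ) / ∏ i, (q (b, i) : ℝ)) * (1 / (2 * L)) := by
        apply mul_le_mul_of_nonneg_right _ (by positivity)
        exact mul_le_mul_of_nonneg_left (h2.trans h1) (Nat.cast_nonneg _)

theorem lower3_int (c : ℝ) (hc0 : 0 < c) (R : ℕ) (hc : Cost3 c R) (ε : ℝ) (hε : 0 < ε) :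
    ∃ N0 : ℕ, ∀ W : ℕ, N0 ≤ W →
      Dens3 W (Real.exp (-((1 + ε) * ((1 + 1 : ℕ) : ℝ) *
        (2 * c * 1 * Real.log W) ^ ((1 : ℝ) / ((1 + 1 : ℕ) : ℝ))))) := by
  obtain ⟨K, hK⟩ : ∃ K : ℝ, K = Real.exp (2 * (c + 1)) * ((R : ℝ) + 1) := ⟨_, rfl⟩
  have hK0 : 0 < K := by rw [hK]; positivity
  refine step_asym 1 le_rfl c 1 hc0 one_pos 1 Dens3 (fun L x => K * (L : ℝ) * x ≤ 1)
    (fun W x y h hxy => h.mono hxy) ?_ ?_ ε hε
  · intro η hη
    obtain ⟨m0, hm0⟩ := one_level3 c hc0 R hc η hη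
    refine ⟨m0, fun m hm d hd hdm W hW x hx => hm0 m hm d hd hdm W hW x ?_⟩
    rw [← hK]
    exact hx
  · intro ε hε
    obtain ⟨N0, hN0⟩ := exists_nat_ge (Real.exp (Real.log K / ε))
    refine ⟨max N0 1, fun N hN => ?_⟩
    have hN1 : 1 ≤ N := le_trans (le_max_right _ _) hN
    have hNpos : (0 : ℝ) < N := by exact_mod_cast hN1
    have h1 : Real.exp (Real.log K / ε) ≤ N := hN0.trans (by exact_mod_cast le_trans (le_max_left _ _) hN)
    have h2 : Real.log K / ε ≤ Real.log N := by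
      rw [← Real.log_exp (Real.log K / ε)]
      exact Real.log_le_log (Real.exp_pos _) h1
    have h3 : Real.log K ≤ ε * Real.log N := by
      rw [div_le_iff₀ hε] at h2
      linarith
    simp only [Nat.cast_one, mul_one, one_mul, div_one, Real.rpow_one]
    have h4 : K * (N : ℝ) = Real.exp (Real.log K + Real.log N) := by
      rw [Real.exp_add, Real.exp_log hK0, Real.exp_log hNpos]
    rw [h4, ← Real.exp_add, Real.exp_le_one_iff]
    linarith

theorem lower3 (c : ℝ) (hc0 : 0 < c) (R : ℕ) (hc : Cost3 c R) (ε : ℝ) (hε : 0 < ε) :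
    ∃ N₀ : ℕ, ∀ N : ℕ, N₀ ≤ N → ∃ A : Finset ℕ, A ⊆ Finset.Icc 1 N ∧
      (∀ a d : ℕ, 0 < d → ¬ (a ∈ A ∧ a + d ∈ A ∧ a + 2 * d ∈ A)) ∧
      (N : ℝ) * Real.exp (-((1 + ε) * 2 * Real.sqrt (2 * c * Real.log N))) ≤ A.card := by
  obtain ⟨N0, hN0⟩ := lower3_int c hc0 R hc ε hε
  refine ⟨N0, fun N hN => ?_⟩
  obtain ⟨A, hA, hAf, hAc⟩ := hN0 N hN
  refine ⟨A.image (fun a => a.toNat + 1), ?_, ?_, ?_⟩
  · intro x hx
    obtain ⟨a, ha, rfl⟩ := Finset.mem_image.1 hx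
    have := Finset.mem_Ico.1 (hA ha)
    rw [Finset.mem_Icc]
    omega
  · rintro a d hd ⟨h1, h2, h3⟩
    obtain ⟨x, hx, hx'⟩ := Finset.mem_image.1 h1
    obtain ⟨y, hy, hy'⟩ := Finset.mem_image.1 h2
    obtain ⟨z, hz, hz'⟩ := Finset.mem_image.1 h3
    have g1 := Finset.mem_Ico.1 (hA hx)
    have g2 := Finset.mem_Ico.1 (hA hy)
    have g3 := Finset.mem_Ico.1 (hA hz)
    have := hAf x hx y hy z hz (by omega)
    omega
  · rw [Finset.card_image_of_injOn]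
    · refine le_trans (le_of_eq ?_) hAc
      congr 3
      rw [Real.sqrt_eq_rpow]
      norm_num
    · intro x hx y hy hxy
      have h1 := Finset.mem_Ico.1 (hA (Finset.mem_coe.1 hx))
      have h2 := Finset.mem_Ico.1 (hA (Finset.mem_coe.1 hy))
      have h3 : x.toNat + 1 = y.toNat + 1 := hxy
      omega

end Vale.Agent.P057.H570
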