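import Vale.Agent.P057.H570.Asym

/-! Level sets of sums of weights on three dimensional blocks. -/

namespace Vale.Agent.P057.H570

open Finset

/-- no nontrivial three term progression -/
def Free3 (A : Finset ℤ) : Prop :=
  ∀ a ∈ A, ∀ b ∈ A, ∀ c ∈ A, a + c = 2 * b → a = b

/-- a progression free subset of `[0, W)` of density at least `x` exists -/
def Dens3 (W : ℕ) (x : ℝ) : Prop :=
  ∃ A : Finset ℤ, A ⊆ Finset.Ico 0 (W : ℤ) ∧ Free3 A ∧ (W : ℝ) * x ≤ A.card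

theorem Dens3.mono {W : ℕ} {x y : ℝ} (h : Dens3 W x) (hxy : y ≤ x) : Dens3 W y := by
  obtain ⟨A, h1, h2, h3⟩ := h
  exact ⟨A, h1, h2, le_trans (mul_le_mul_of_nonneg_left hxy (Nat.cast_nonneg _)) h3⟩

/-- a three dimensional block with an integral weight that is strictly convex along all
progressions modulo `p` -/
structure Block3 (p : Fin 3 → ℕ) (U : Finset (Fin 3 → ℤ)) (f : (Fin 3 → ℤ) → ℤ) : Prop where
  inj : ∀ u ∈ U, ∀ v ∈ U, (∀ i, (p i : ℤ) ∣ u i - v i) → u = v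
  ap : ∀ x ∈ U, ∀ y ∈ U, ∀ z ∈ U, (∀ i, (p i : ℤ) ∣ x i + y i - 2 * z i) →
    0 ≤ f x + f y - 2 * f z ∧ (f x + f y - 2 * f z = 0 → x = z)

theorem level3 {β : Type} [Fintype β] [DecidableEq β] (q : β × Fin 3 → ℕ)
    (hq : Pairwise (Function.onFun Nat.Coprime q)) (hq0 : ∀ i, 0 < q i)
    (U : β → Finset (Fin 3 → ℤ)) (f : β → (Fin 3 → ℤ) → ℤ)
    (hU : ∀ b, Block3 (fun i => q (b, i)) (U b) (f b))
    (L : ℕ) (hL : 0 < L) (hf0 : ∀ b, ∀ u ∈ U b, 0 ≤ f b u)
    (hF : ∀ v : β → Fin 3 → ℤ, (∀ b, v b ∈ U b) → ∑ b, f b (v b) < (L : ℤ))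
    (W : ℕ) (hW : W ≤ ∏ i, q i) :
    ∃ A : Finset ℤ, A ⊆ Finset.Ico 0 (W : ℤ) ∧ Free3 A ∧
      (W : ℝ) * (∏ b, ((U b).card : ℝ) / ∏ i, (q (b, i) : ℝ)) * (1 / (2 * L)) ≤ A.card := by
  classical
  obtain ⟨M, crt, hM, hM0, hcrt, hinj⟩ := crt_exists q hq hq0
  let unc : (β → Fin 3 → ℤ) → (β × Fin 3 → ℤ) := fun v i => v i.1 i.2
  have hunc : Function.Injective unc := by
    intro v w h
    funext b i
    exact congrFun h (b, i)
  let V : Finset (β × Fin 3 → ℤ) := (Fintype.piFinset U).image unc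
  have hVmem : ∀ v ∈ V, ∃ w : β → Fin 3 → ℤ, (∀ b, w b ∈ U b) ∧ unc w = v := by
    intro v hv
    obtain ⟨w, hw, rfl⟩ := Finset.mem_image.1 hv
    exact ⟨w, Fintype.mem_piFinset.1 hw, rfl⟩
  have hVcard : V.card = ∏ b, (U b).card := by
    rw [Finset.card_image_of_injective _ hunc, Fintype.card_piFinset]
  have hV : ∀ v ∈ V, ∀ v' ∈ V, crt v = crt v' → v = v' := by
    intro v hv v' hv' h
    obtain ⟨w, hw, rfl⟩ := hVmem v hv
    obtain ⟨w', hw', rfl⟩ := hVmem v' hv'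
    have h1 := hinj _ _ h
    have : w = w' := by
      funext b
      exact (hU b).inj _ (hw b) _ (hw' b) (fun i => h1 (b, i))
    rw [this]
  let F : (β × Fin 3 → ℤ) → ℤ := fun v => ∑ b, f b (fun i => v (b, i))
  have hFV : ∀ v ∈ V, 0 ≤ F v ∧ F v < L := by
    intro v hv
    obtain ⟨w, hw, rfl⟩ := hVmem v hv
    exact ⟨Finset.sum_nonneg (fun b _ => hf0 b _ (hw b)), hF w hw⟩
  have hB : ({0} : Finset ℤ) ⊆ Finset.Ico 0 (L : ℤ) := by
    intro x hx
    rw [Finset.mem_singleton] at hx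
    rw [hx, Finset.mem_Ico]
    omega
  obtain ⟨s, t, A, hA, hprop, hcard⟩ := pigeon_count M hM0 crt V hV F L hL hFV {0} hB W
  have : NeZero M := ⟨hM0.ne'⟩
  refine ⟨A, hA, ?_, ?_⟩
  · intro a ha b hb c hc habc
    have key : ∀ y ∈ A, ∃ w : β → Fin 3 → ℤ, (∀ b, w b ∈ U b) ∧
        (∀ i, (q i : ℤ) ∣ ((s.val : ℤ) + y) - w i.1 i.2) ∧ ∑ b, f b (w b) = -t := by
      intro y hy
      obtain ⟨v, hv, hs, hb'⟩ := hprop y hy
      obtain ⟨w, hw, rfl⟩ := hVmem v hv
      refine ⟨w, hw, ?_, ?_⟩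
      · have h1 : (((s.val : ℤ) + y : ℤ) : ZMod M) = crt (unc w) := by
          rw [Int.cast_add, Int.cast_natCast, ZMod.natCast_val, ZMod.cast_id', id_eq, ← hs,
            sub_add_cancel]
        exact fun i => hcrt _ _ h1 i
      · have h2 := Finset.mem_singleton.1 hb'
        have h3 : F (unc w) = ∑ b, f b (w b) := rfl
        rw [h3] at h2
        linarith
    obtain ⟨wa, hwa, hda, hsa⟩ := key a ha
    obtain ⟨wb, hwb, hdb, hsb⟩ := key b hb
    obtain ⟨wc, hwc, hdc, hsc⟩ := key c hc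
    have hap : ∀ b', 0 ≤ f b' (wa b') + f b' (wc b') - 2 * f b' (wb b') ∧
        (f b' (wa b') + f b' (wc b') - 2 * f b' (wb b') = 0 → wa b' = wb b') := by
      intro b'
      apply (hU b').ap _ (hwa b') _ (hwc b') _ (hwb b')
      intro i
      have h1 := hda (b', i)
      have h2 := hdb (b', i)
      have h3 := hdc (b', i)
      have h4 : wa b' i + wc b' i - 2 * wb b' i = -(((s.val : ℤ) + a) - wa b' i)
          - (((s.val : ℤ) + c) - wc b' i) + 2 * (((s.val : ℤ) + b) - wb b' i) := by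
        linarith only [habc]
      rw [h4]
      exact dvd_add (dvd_sub (dvd_neg.2 h1) h3) (dvd_mul_of_dvd_right h2 _)
    have hzero : ∑ b', (f b' (wa b') + f b' (wc b') - 2 * f b' (wb b')) = 0 := by
      rw [Finset.sum_sub_distrib, Finset.sum_add_distrib, ← Finset.mul_sum, hsa, hsb, hsc]
      ring
    have heq : ∀ b', wa b' = wb b' := fun b' =>
      (hap b').2 ((Finset.sum_eq_zero_iff_of_nonneg (fun i _ => (hap i).1)).1 hzero b'
        (Finset.mem_univ b'))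
    have hcop : (∏ i, (q i : ℤ)) ∣ a - b := by
      apply Fintype.prod_dvd_of_coprime (fun i j hij => Nat.isCoprime_iff_coprime.2 (hq hij))
      intro i
      have h1 := hda i
      have h2 := hdb i
      have : a - b = (((s.val : ℤ) + a) - wa i.1 i.2) - (((s.val : ℤ) + b) - wb i.1 i.2) := by
        rw [heq i.1]; ring
      rw [this]
      exact dvd_sub h1 h2
    have hlt : |a - b| < ∏ i, (q i : ℤ) := by
      have h3 : ((W : ℕ) : ℤ) ≤ ((∏ i, q i : ℕ) : ℤ) := by exact_mod_cast hW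
      push_cast at h3
      have g0 := Finset.mem_Ico.1 (hA ha)
      have g1 := Finset.mem_Ico.1 (hA hb)
      rw [abs_lt]
      constructor <;> linarith only [h3, g0.1, g0.2, g1.1, g1.2]
    have h01 := Int.eq_zero_of_abs_lt_dvd hcop hlt
    linarith only [h01]
  · refine le_trans (le_of_eq ?_) hcard
    rw [hVcard, Finset.card_singleton, Nat.cast_one, mul_one]
    have hMR : (M : ℝ) = ∏ b, ∏ i, (q (b, i) : ℝ) := by
      rw [hM, Nat.cast_prod, Fintype.prod_prod_type]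
    rw [hMR, Finset.prod_div_distrib, Nat.cast_prod]
    have hP : (∏ b, ∏ i, (q (b, i) : ℝ)) ≠ 0 := by rw [← hMR]; exact_mod_cast hM0.ne'
    have hL' : (L : ℝ) ≠ 0 := by exact_mod_cast hL.ne'
    generalize (∏ b, ∏ i, (q (b, i) : ℝ)) = P at hP ⊢
    generalize (∏ b, ((U b).card : ℝ)) = C
    clear * - hP hL'
    field_simp

end Vale.Agent.P057.H570
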